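import Mathlib

open Finset

namespace Vale.Agent.Results.P013.Composition

def CoprimeInEveryRun (n m : ℕ) : Prop :=
  ∀ s : ℤ, ∃ x : ℤ, s ≤ x ∧ x < s + m ∧ IsCoprime x (n : ℤ)

noncomputable def jacobsthal (n : ℕ) : ℕ := sInf {m : ℕ | 0 < m ∧ CoprimeInEveryRun n m}

lemma coprimeInEveryRun_self {n : ℕ} (hn : 0 < n) : CoprimeInEveryRun n n := by
  intro s
  refine ⟨s + (1 - s) % (n : ℤ), ?_, ?_, ?_⟩
  · have := Int.emod_nonneg (1 - s) (by exact_mod_cast hn.ne' : (n : ℤ) ≠ 0)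
    linarith
  · have := Int.emod_lt_of_pos (1 - s) (by exact_mod_cast hn : (0 : ℤ) < n)
    linarith
  · have h : s + (1 - s) % (n : ℤ) = 1 - (n : ℤ) * ((1 - s) / n) := by
      have := Int.emod_add_mul_ediv (1 - s) n
      linarith
    rw [h]
    refine ⟨1, (1 - s) / n, ?_⟩
    ring

lemma jacobsthal_spec {n : ℕ} (hn : 0 < n) :
    0 < jacobsthal n ∧ CoprimeInEveryRun n (jacobsthal n) :=
  Nat.sInf_mem (s := {m : ℕ | 0 < m ∧ CoprimeInEveryRun n m}) ⟨n, hn, coprimeInEveryRun_self hn⟩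

lemma jacobsthal_le {n m : ℕ} (hm : 0 < m) (h : CoprimeInEveryRun n m) : jacobsthal n ≤ m :=
  Nat.sInf_le ⟨hm, h⟩

lemma card_multiples_le (s : ℤ) (m p : ℕ) (hp : 0 < p) :
    (((Ico s (s + m)).filter (fun x => (p : ℤ) ∣ x)).card : ℝ) ≤ (m : ℝ) / p + 1 := by
  have hp' : (0 : ℤ) < p := by exact_mod_cast hp
  have h := Int.Ico_filter_dvd_card s (s + m) hp'
  have hq : (0 : ℚ) < (p : ℚ) := by exact_mod_cast hp
  have h1 : (⌈((s + m : ℤ) : ℚ) / ((p : ℤ) : ℚ)⌉ : ℚ) < ((s + m : ℤ) : ℚ) / ((p : ℤ) : ℚ) + 1 :=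
    Int.ceil_lt_add_one _
  have h2 : ((s : ℤ) : ℚ) / ((p : ℤ) : ℚ) ≤ (⌈((s : ℤ) : ℚ) / ((p : ℤ) : ℚ)⌉ : ℚ) := Int.le_ceil _
  have h3 : ((((Ico s (s + m)).filter (fun x => (p : ℤ) ∣ x)).card : ℤ) : ℚ) ≤ (m : ℚ) / p + 1 := by
    rw [h]
    push_cast
    apply max_le
    · have e : ((s : ℚ) + m) / p = (s : ℚ) / p + (m : ℚ) / p := by ring
      push_cast at h1 h2
      linarith
    · positivity
  have h4 : ((((Ico s (s + m)).filter (fun x => (p : ℤ) ∣ x)).card : ℚ) : ℝ) ≤ (((m : ℚ) / p + 1 : ℚ) : ℝ) := by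
    exact_mod_cast h3
  push_cast at h4
  exact h4


lemma exists_prime_dvd_of_not_coprime {x : ℤ} {b : ℕ} (hb : 0 < b) (h : ¬ IsCoprime x (b : ℤ)) :
    ∃ p ∈ b.primeFactors, (p : ℤ) ∣ x := by
  rw [Int.isCoprime_iff_gcd_eq_one] at h
  obtain ⟨p, hp, hpd⟩ := Nat.exists_prime_and_dvd h
  refine ⟨p, ?_, ?_⟩
  · rw [Nat.mem_primeFactors]
    refine ⟨hp, ?_, hb.ne'⟩
    have : (Int.gcd x b : ℤ) ∣ (b : ℤ) := Int.gcd_dvd_right x b
    exact_mod_cast (Int.natCast_dvd_natCast.2 hpd).trans this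
  · exact (Int.natCast_dvd_natCast.2 hpd).trans (Int.gcd_dvd_left x b)

theorem composition (a b : ℕ) (ha : 0 < a) (hb : 0 < b) (m : ℕ)
    (hm : (jacobsthal a : ℝ) * (b.primeFactors.card + 1)
      ≤ m * (1 - jacobsthal a * ∑ p ∈ b.primeFactors, (1 / (p : ℝ)))) :
    jacobsthal (a * b) ≤ m := by
  obtain ⟨hJ0, hJ⟩ := jacobsthal_spec ha
  set J := jacobsthal a with hJdef
  set σ : ℝ := ∑ p ∈ b.primeFactors, (1 / (p : ℝ)) with hσ
  have hJR : (0 : ℝ) < J := by exact_mod_cast hJ0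
  have hσ0 : 0 ≤ σ := Finset.sum_nonneg fun p _ => by positivity
  have hm0 : 0 < m := by
    rcases Nat.eq_zero_or_pos m with h | h
    · rw [h] at hm
      have : (0 : ℝ) < (J : ℝ) * (b.primeFactors.card + 1) := by positivity
      simp at hm
      linarith
    · exact h
  apply jacobsthal_le hm0
  intro s
  by_contra hcon
  push Not at hcon
  set q := m / J with hq
  choose f hf using fun i : ℕ => hJ (s + i * J)
  have hfmem : ∀ i ∈ range q, f i ∈ (Ico s (s + m)) := by
    intro i hi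
    rw [mem_range] at hi
    obtain ⟨h1, h2, _⟩ := hf i
    rw [mem_Ico]
    have h3 : (i + 1) * J ≤ m := le_trans (Nat.mul_le_mul_right J hi) (Nat.div_mul_le_self m J)
    have h3' : ((i : ℤ) + 1) * J ≤ m := by exact_mod_cast h3
    have h4 : (0 : ℤ) ≤ (i : ℤ) * J := by positivity
    constructor
    · linarith
    · linarith
  have hfinj : Set.InjOn f (range q : Set ℕ) := by
    have key : ∀ i j : ℕ, i < j → f i ≠ f j := by
      intro i j hlt hij
      obtain ⟨_, h2, _⟩ := hf i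
      obtain ⟨h1, _, _⟩ := hf j
      have h3 : ((i : ℤ) + 1) * J ≤ (j : ℤ) * J := by
        have : i + 1 ≤ j := hlt
        have : (i + 1) * J ≤ j * J := Nat.mul_le_mul_right J this
        exact_mod_cast this
      rw [hij] at h2
      linarith
    intro i _ j _ hij
    rcases lt_trichotomy i j with h | h | h
    · exact absurd hij (key i j h)
    · exact h
    · exact absurd hij.symm (key j i h)
  have hcover : (range q).image f ⊆
      b.primeFactors.biUnion (fun p => (Ico s (s + m)).filter (fun x => (p : ℤ) ∣ x)) := by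
    intro x hx
    rw [mem_image] at hx
    obtain ⟨i, hi, rfl⟩ := hx
    have hmem := hfmem i hi
    have hca : IsCoprime (f i) (a : ℤ) := (hf i).2.2
    have hnb : ¬ IsCoprime (f i) (b : ℤ) := by
      intro hcb
      rw [mem_Ico] at hmem
      apply hcon (f i) hmem.1 hmem.2
      push_cast
      exact hca.mul_right hcb
    obtain ⟨p, hp, hpd⟩ := exists_prime_dvd_of_not_coprime hb hnb
    rw [mem_biUnion]
    exact ⟨p, hp, mem_filter.2 ⟨hmem, hpd⟩⟩
  have hcard : (q : ℝ) ≤ m * σ + b.primeFactors.card := by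
    have h1 : q = ((range q).image f).card := by
      rw [card_image_of_injOn hfinj, card_range]
    have h2 := (card_le_card hcover).trans card_biUnion_le
    rw [← h1] at h2
    have h3 : (q : ℝ) ≤ ∑ p ∈ b.primeFactors,
        (((Ico s (s + m)).filter (fun x => (p : ℤ) ∣ x)).card : ℝ) := by exact_mod_cast h2
    refine h3.trans ?_
    calc ∑ p ∈ b.primeFactors, (((Ico s (s + m)).filter (fun x => (p : ℤ) ∣ x)).card : ℝ)
        ≤ ∑ p ∈ b.primeFactors, ((m : ℝ) / p + 1) := by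
          apply Finset.sum_le_sum
          intro p hp
          exact card_multiples_le s m p (Nat.pos_of_mem_primeFactors hp)
      _ = m * σ + b.primeFactors.card := by
          rw [Finset.sum_add_distrib, hσ, Finset.mul_sum]
          simp [div_eq_mul_inv]
  have hqlow : (m : ℝ) / J - 1 < q := by
    have h1 : m < (q + 1) * J := by
      rw [hq]
      have := Nat.lt_succ_iff.2 (le_refl (m / J))
      exact (Nat.div_lt_iff_lt_mul hJ0).1 this
    have h2 : (m : ℝ) < ((q : ℝ) + 1) * J := by exact_mod_cast h1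
    rw [sub_lt_iff_lt_add, div_lt_iff₀ hJR]
    exact h2
  have hfin : (m : ℝ) / J - 1 ≥ m * σ + b.primeFactors.card := by
    have : (m : ℝ) / J = (m * (1 - J * σ)) / J + m * σ := by
      field_simp
      ring
    rw [this]
    have h2 : ((b.primeFactors.card : ℝ) + 1) ≤ (m * (1 - J * σ)) / J := by
      rw [le_div_iff₀ hJR]
      linarith
    linarith
  linarith


theorem gap_family (a b : ℕ) (ha : 0 < a) (hb : 0 < b)
    (hgap : ∀ p ∈ b.primeFactors, 2 * jacobsthal a * b.primeFactors.card ≤ p) :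
    jacobsthal (a * b) ≤ 2 * jacobsthal a * (b.primeFactors.card + 1) := by
  obtain ⟨hJ0, -⟩ := jacobsthal_spec ha
  set J := jacobsthal a with hJdef
  set k := b.primeFactors.card with hk
  have hJR : (0 : ℝ) < J := by exact_mod_cast hJ0
  apply composition a b ha hb
  rw [← hJdef, ← hk]
  have hσ : (J : ℝ) * ∑ p ∈ b.primeFactors, (1 / (p : ℝ)) ≤ 1 / 2 := by
    rcases Nat.eq_zero_or_pos k with h0 | hpos
    · have : b.primeFactors = ∅ := Finset.card_eq_zero.1 (hk ▸ h0)
      rw [this]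
      simp
    · have hkR : (0 : ℝ) < k := by exact_mod_cast hpos
      have h1 : ∑ p ∈ b.primeFactors, (1 / (p : ℝ)) ≤ ∑ _p ∈ b.primeFactors, (1 / (2 * J * k : ℝ)) := by
        apply Finset.sum_le_sum
        intro p hp
        have h2 : ((2 * J * k : ℕ) : ℝ) ≤ p := by exact_mod_cast hgap p hp
        push_cast at h2
        exact one_div_le_one_div_of_le (by positivity) h2
      rw [Finset.sum_const, ← hk, nsmul_eq_mul] at h1
      calc (J : ℝ) * ∑ p ∈ b.primeFactors, (1 / (p : ℝ)) ≤ J * (k * (1 / (2 * J * k : ℝ))) :=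
            mul_le_mul_of_nonneg_left h1 hJR.le
        _ = 1 / 2 := by field_simp
  push_cast
  have hk0 : (0 : ℝ) ≤ (k : ℝ) + 1 := by positivity
  nlinarith [mul_nonneg hJR.le hk0]

theorem result :
    (∀ a b m : ℕ, 0 < a → 0 < b →
      (jacobsthal a : ℝ) * (b.primeFactors.card + 1)
        ≤ m * (1 - jacobsthal a * ∑ p ∈ b.primeFactors, (1 / (p : ℝ))) →
      jacobsthal (a * b) ≤ m)
    ∧ (∀ a b : ℕ, 0 < a → 0 < b →
      (∀ p ∈ b.primeFactors, 2 * jacobsthal a * b.primeFactors.card ≤ p) →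
      jacobsthal (a * b) ≤ 2 * jacobsthal a * (b.primeFactors.card + 1)) :=
  ⟨fun a b m ha hb h => composition a b ha hb m h, gap_family⟩

end Vale.Agent.Results.P013.Composition
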